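import Vale.Agent.P338.R2.H490.Copy
import Vale.Agent.P338.R2.H784.Bp.Ops

/-!
P338, stage 3: the copy passes of the batch multiplication on the common files.
-/

namespace Vale.Agent.P338.R2.H490

open Vale.Agent.P338.R2.H898
open Vale.Agent.P338.R2.H968
open Vale.Agent.P338.R2.H784
open Vale.Agent.P338.R2.H784.Fp
open Vale.Agent.P338.R2.H784.Bp hiding CP
open Vale.Agent.P338.R2.H968.CallEnv (mem0 callC)
open H525 (zeros slotAt)
open Function (update)

theorem gB_pos (W : ℕ) : 1 ≤ gB W := Nat.succ_pos _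

theorem gB_le {W : ℕ} (hW : 1024 ≤ W) : gB W ≤ W := Nat.log_lt_self 2 (by omega)

theorem dB_pos (W : ℕ) : 1 ≤ dB W := Nat.succ_pos _

theorem gD_le (W : ℕ) : gB W * dB W ≤ W + gB W := by
  unfold dB
  have := Nat.mul_div_le W (gB W)
  rw [Nat.mul_add, Nat.mul_one]
  omega

theorem lt_gD (W : ℕ) : W < gB W * dB W := by
  unfold dB
  have h1 := Nat.lt_mul_div_succ W (gB_pos W)
  exact h1

theorem gD_eq (W : ℕ) : gB W * dB W = W + padB W := by
  have := lt_gD W
  unfold padB
  omega

theorem padB_le (W : ℕ) : padB W ≤ gB W := by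
  have := gD_eq W
  have := gD_le W
  omega

theorem padB_pos (W : ℕ) : 1 ≤ padB W := by
  have := gD_eq W
  have := lt_gD W
  omega

variable {A A₀ : MTM} {Y : Type}

section

variable {W n q om nu iv N : ℕ} {S : ZS (Al A A₀)} {B : BS (Al A A₀)}

theorem pc_W (h : InPc A A₀ W n q om nu iv N S B) : 1024 ≤ W := h.prm.hW

theorem pc_n (h : InPc A A₀ W n q om nu iv N S B) : 2 ≤ n := by
  have h1 := pc_W h
  have h2 := h.hN
  have h3 := h.hn
  nlinarith

theorem pc_cost (h : InPc A A₀ W n q om nu iv N S B) {k t : ℕ} (hk : k ≤ 800)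
    (ht : t ≤ k * (N * W)) : t + 2 ≤ 3 * n := by
  have h2 := pc_n h
  have h3 := h.hn
  have h4 : k * (N * W) ≤ 800 * (N * W) := Nat.mul_le_mul_right _ hk
  have h5 : 400 * (N * W) = 400 * N * W := by ring
  omega

end

variable [DecidableEq (LG A.Tape A₀.Tape Y)] [DecidableEq (Al A A₀)]

/-! `spread` -/

/-- The rulers. -/
def ρS : SR → NF
  | .N => .r .N
  | .D => .r .D
  | .g => .r .g

/-- Their lengths. -/
def mS (W N : ℕ) : SR → ℕ
  | .N => N
  | .D => dB W
  | .g => gB W

/-- A work file to `t`. -/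
def spreadG (A A₀ : MTM) (Y : Type) [DecidableEq (LG A.Tape A₀.Tape Y)] [DecidableEq (Al A A₀)]
    (v : NF) : PG A A₀ Y :=
  cpass (ng v) (ng .t) (fun r => ng (ρS r)) (bt (A := A) (A₀ := A₀)) .u .k spreadX

theorem run_spreadG {W n q om nu iv N : ℕ} {S : ZS (Al A A₀)} {B : BS (Al A A₀)}
    {w : List Bool} (v : NF) (h : InPc A A₀ W n q om nu iv N S B) (hv : v = .x ∨ v = .y)
    (hw : B.get v = bw A A₀ w) (ht : B.t = ⟨[], []⟩) (hl : w.length = N * (gB W * dB W)) :
    Prog.Run (dd A A₀) (spreadG A A₀ Y v) (st2 Y S B) (3 * n)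
      (st2 Y S { B with t := bw A A₀ (spreadB (gB W) (bB W) (N * dB W) w) }) := by
  have hwk : wk v = true := by
    rcases hv with rfl | rfl <;> rfl
  have hpos : ∀ r, 0 < mS W N r := by
    intro r
    cases r
    · exact h.hN
    · exact dB_pos W
    · exact gB_pos W
  have hrun := run_spread (M := Mem A A₀) (F := LG A.Tape A₀.Tape Y) (α := Al A A₀)
    (d := dd A A₀) (ng v) (ng .t) (by rcases hv with rfl | rfl <;> simp)
    (fun r => ng (ρS r)) (by intro a b hab; cases a <;> cases b <;> simp_all [ρS])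
    (by intro r; rcases hv with rfl | rfl <;> cases r <;> simp [ρS])
    (by intro r; cases r <;> simp [ρS]) (bt (A := A) (A₀ := A₀)) .u .k (by simp)
    (mem0 A, mem0 A₀) (z2 .u S B) w (mS W N) ((z2_get hwk).trans hw) ht
    (by
      intro r
      cases r
      · exact ⟨_, rfl, by rw [List.length_replicate, h.r]; rfl⟩
      · exact ⟨_, rfl, by rw [List.length_replicate, h.r]; rfl⟩
      · exact ⟨_, rfl, by rw [List.length_replicate, h.r]; rfl⟩) hpos
    (by
      simp only [mS]
      rw [hl, Nat.mul_comm (gB W)])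
  rw [z2_t] at hrun
  refine hrun.mono (pc_cost h (k := 260) (by norm_num) ?_)
  simp only [mS]
  have h1 := gD_le W
  have h2 := gB_le (pc_W h)
  calc 130 * (N * (dB W * gB W)) ≤ 130 * (N * (2 * W)) :=
        Nat.mul_le_mul_left _ (Nat.mul_le_mul_left _ (by rw [Nat.mul_comm]; omega))
    _ = 260 * (N * W) := by ring

/-! `car` -/

/-- The rulers. -/
def ρA : AR → NF
  | .N => .r .N
  | .J => .r .J2
  | .g => .r .g

/-- Their lengths. -/
def mA (W N : ℕ) : AR → ℕ
  | .N => N
  | .J => 2 * dB W - 1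
  | .g => gB W

/-- `t` to a work file. -/
def carG (A A₀ : MTM) (Y : Type) [DecidableEq (LG A.Tape A₀.Tape Y)] [DecidableEq (Al A A₀)]
    (i : ℕ) (v : NF) : PG A A₀ Y :=
  cpass (ng .t) (ng v) (fun r => ng (ρA r)) (bt (A := A) (A₀ := A₀)) .u .k (carX i)

theorem run_carG {W n q om nu iv N : ℕ} {S : ZS (Al A A₀)} {B : BS (Al A A₀)}
    {w : List Bool} (i : ℕ) (v : NF) (hi : i < 3) (h : InPc A A₀ W n q om nu iv N S B)
    (hv : v = .x ∨ v = .y) (hv0 : B.get v = ⟨[], []⟩) (hw : B.t = bw A A₀ w)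
    (hl : w.length = N * (2 * dB W - 1) * bB W) :
    Prog.Run (dd A A₀) (carG A A₀ Y i v) (st2 Y S B) (3 * n)
      (st2 Y S (B.set v (bw A A₀ (carB (gB W) (bB W) i (2 * dB W - 1) N w)))) := by
  have hwk : wk v = true := by
    rcases hv with rfl | rfl <;> rfl
  have hd := dB_pos W
  have hpos : ∀ r, 0 < mA W N r := by
    intro r
    cases r
    · exact h.hN
    · simp only [mA]
      omega
    · exact gB_pos W
  have hrun := run_car (M := Mem A A₀) (F := LG A.Tape A₀.Tape Y) (α := Al A A₀)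
    (d := dd A A₀) (ng .t) (ng v) (by rcases hv with rfl | rfl <;> simp)
    (fun r => ng (ρA r)) (by intro a b hab; cases a <;> cases b <;> simp_all [ρA])
    (by intro r; cases r <;> simp [ρA])
    (by intro r; rcases hv with rfl | rfl <;> cases r <;> simp [ρA])
    (bt (A := A) (A₀ := A₀)) .u .k (by simp)
    (mem0 A, mem0 A₀) (z2 .u S B) w (mA W N) hw ((z2_get hwk).trans hv0)
    (by
      intro r
      cases r
      · exact ⟨_, rfl, by rw [List.length_replicate, h.r]; rfl⟩
      · exact ⟨_, rfl, by rw [List.length_replicate, h.r]; rfl⟩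
      · exact ⟨_, rfl, by rw [List.length_replicate, h.r]; rfl⟩) hpos (v := i) (by omega)
    (by
      simp only [mA]
      rw [hl]
      unfold bB
      exact le_of_eq (by ring))
  rw [z2_set hwk] at hrun
  refine hrun.mono (pc_cost h (k := 640) (by norm_num) ?_)
  simp only [mA]
  have h1 := gD_le W
  have h2 := gB_le (pc_W h)
  calc 160 * (N * ((2 * dB W - 1) * gB W)) ≤ 160 * (N * (4 * W)) := by
        refine Nat.mul_le_mul_left _ (Nat.mul_le_mul_left _ ?_)
        calc (2 * dB W - 1) * gB W ≤ 2 * dB W * gB W := Nat.mul_le_mul_right _ (by omega)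
          _ = 2 * (gB W * dB W) := by ring
          _ ≤ _ := by omega
    _ = 640 * (N * W) := by ring

/-! `trim` -/

/-- The rulers. -/
def ρT {T T₀ Y : Type} : TR → LG T T₀ Y
  | .N => ng (.r .N)
  | .W => og (.r .wd)
  | .P => ng (.r .pd)
  | .g => ng (.r .g)

/-- Their lengths. -/
def mT (W N : ℕ) : TR → ℕ
  | .N => N
  | .W => W
  | .P => padB W
  | .g => gB W

/-- `x` to `opX`. -/
def trimG (A A₀ : MTM) (Y : Type) [DecidableEq (LG A.Tape A₀.Tape Y)] [DecidableEq (Al A A₀)] :
    PG A A₀ Y :=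
  cpass (ng .x) (og .opX) ρT (bt (A := A) (A₀ := A₀)) .u .k trimX

theorem run_trimG {W n q om nu iv N : ℕ} {S : ZS (Al A A₀)} {B : BS (Al A A₀)}
    {w : List Bool} (h : InPc A A₀ W n q om nu iv N S B) (hw : B.x = bw A A₀ w)
    (hO : S.opX = ⟨[], []⟩) (hl : w.length = N * (2 * padB W + gB W + 2 * W)) :
    Prog.Run (dd A A₀) (trimG A A₀ Y) (st2 Y S B) (3 * n)
      (st2 Y { S with opX := bw A A₀ (trimB (2 * padB W + gB W) W N w) } B) := by
  have hW := pc_W h
  have hpos : ∀ r, 0 < mT W N r := by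
    intro r
    cases r
    · exact h.hN
    · simp only [mT]
      omega
    · exact padB_pos W
    · exact gB_pos W
  have hrun := run_trim (M := Mem A A₀) (F := LG A.Tape A₀.Tape Y) (α := Al A A₀)
    (d := dd A A₀) (ng .x) (og .opX) (by simp)
    ρT (by intro a b hab; cases a <;> cases b <;> simp_all [ρT])
    (by intro r; cases r <;> simp [ρT])
    (by intro r; cases r <;> simp [ρT, lz])
    (bt (A := A) (A₀ := A₀)) .u .k (by simp)
    (mem0 A, mem0 A₀) (z2 .u S B) w (mT W N) hw hO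
    (by
      intro r
      cases r
      · exact ⟨_, rfl, by rw [List.length_replicate, h.r]; rfl⟩
      · exact ⟨_, rfl, by rw [List.length_replicate]; exact h.wd⟩
      · exact ⟨_, rfl, by rw [List.length_replicate, h.r]; rfl⟩
      · exact ⟨_, rfl, by rw [List.length_replicate, h.r]; rfl⟩) hpos hl.ge
  rw [z2_opX] at hrun
  refine hrun.mono (pc_cost h (k := 65) (by norm_num) ?_)
  simp only [mT]
  have h1 := padB_le W
  have h2 := gB_le hW
  calc 13 * (N * (2 * padB W + gB W + 2 * W)) ≤ 13 * (N * (5 * W)) :=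
        Nat.mul_le_mul_left _ (Nat.mul_le_mul_left _ (by omega))
    _ = 65 * (N * W) := by ring

/-! `low` and `high` -/

/-- The rulers. -/
def ρH {T T₀ Y : Type} : HR → LG T T₀ Y
  | .N => ng (.r .N)
  | .W => og (.r .wd)

/-- Their lengths. -/
def mH (W N : ℕ) : HR → ℕ
  | .N => N
  | .W => W

/-- `res` to `opX`. -/
def lowG (A A₀ : MTM) (Y : Type) [DecidableEq (LG A.Tape A₀.Tape Y)] [DecidableEq (Al A A₀)] :
    PG A A₀ Y :=
  cpass (og .res) (og .opX) ρH (bt (A := A) (A₀ := A₀)) .u .k lowX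

/-- `res` to `x`. -/
def highG (A A₀ : MTM) (Y : Type) [DecidableEq (LG A.Tape A₀.Tape Y)] [DecidableEq (Al A A₀)] :
    PG A A₀ Y :=
  cpass (og .res) (ng .x) ρH (bt (A := A) (A₀ := A₀)) .u .k highX

theorem run_lowG {W n q om nu iv N : ℕ} {S : ZS (Al A A₀)} {B : BS (Al A A₀)}
    {w : List Bool} (h : InPc A A₀ W n q om nu iv N S B) (hw : S.res = bw A A₀ w)
    (hO : S.opX = ⟨[], []⟩) (hl : w.length = 2 * n) :
    Prog.Run (dd A A₀) (lowG A A₀ Y) (st2 Y S B) (3 * n)
      (st2 Y { S with opX := bw A A₀ (lowB W N w) } B) := by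
  have hW := pc_W h
  have hN := h.hN
  have hpos : ∀ r, 0 < mH W N r := by
    intro r
    cases r
    · exact h.hN
    · simp only [mH]
      omega
  have hrun := run_low (M := Mem A A₀) (F := LG A.Tape A₀.Tape Y) (α := Al A A₀)
    (d := dd A A₀) (og .res) (og .opX) (by simp [lz])
    ρH (by intro a b hab; cases a <;> cases b <;> simp_all [ρH])
    (by intro r; cases r <;> simp [ρH, lz])
    (by intro r; cases r <;> simp [ρH, lz])
    (bt (A := A) (A₀ := A₀)) .u .k (by simp)
    (mem0 A, mem0 A₀) (z2 .u S B) w (mH W N) hw hO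
    (by
      intro r
      cases r
      · exact ⟨_, rfl, by rw [List.length_replicate, h.r]; rfl⟩
      · exact ⟨_, rfl, by rw [List.length_replicate]; exact h.wd⟩) hpos (by
      simp only [mH]
      rw [hl]
      have h1 : (2 * N + 1) * W ≤ 3 * N * W := Nat.mul_le_mul_right _ (by omega)
      have h2 : 3 * N * W ≤ 400 * N * W := Nat.mul_le_mul_right _ (by omega)
      have := h.hn
      omega)
  rw [z2_opX] at hrun
  exact hrun.mono (pc_cost h (k := 27) (by norm_num) le_rfl)

theorem run_highG {W n q om nu iv N : ℕ} {S : ZS (Al A A₀)} {B : BS (Al A A₀)}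
    {w : List Bool} (h : InPc A A₀ W n q om nu iv N S B) (hw : S.res = bw A A₀ w)
    (hO : B.x = ⟨[], []⟩) (hl : w.length = 2 * n) :
    Prog.Run (dd A A₀) (highG A A₀ Y) (st2 Y S B) (3 * n)
      (st2 Y S { B with x := bw A A₀ (highB W N w) }) := by
  have hW := pc_W h
  have hN := h.hN
  have hpos : ∀ r, 0 < mH W N r := by
    intro r
    cases r
    · exact h.hN
    · simp only [mH]
      omega
  have hrun := run_high (M := Mem A A₀) (F := LG A.Tape A₀.Tape Y) (α := Al A A₀)
    (d := dd A A₀) (og .res) (ng .x) (by simp)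
    ρH (by intro a b hab; cases a <;> cases b <;> simp_all [ρH])
    (by intro r; cases r <;> simp [ρH, lz])
    (by intro r; cases r <;> simp [ρH])
    (bt (A := A) (A₀ := A₀)) .u .k (by simp)
    (mem0 A, mem0 A₀) (z2 .u S B) w (mH W N) hw hO
    (by
      intro r
      cases r
      · exact ⟨_, rfl, by rw [List.length_replicate, h.r]; rfl⟩
      · exact ⟨_, rfl, by rw [List.length_replicate]; exact h.wd⟩) hpos (by
      simp only [mH]
      rw [hl]
      have h2 : 2 * N * W ≤ 400 * N * W := Nat.mul_le_mul_right _ (by omega)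
      have := h.hn
      omega)
  rw [z2_x] at hrun
  exact hrun.mono (pc_cost h (k := 21) (by norm_num) le_rfl)

end Vale.Agent.P338.R2.H490
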