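import Vale.Agent.P338.R2.H490.Copy
import Vale.Agent.P338.R2.H207.Fp.PostVal

/-!
P338, stage 3: the copy passes between the products of a round and the batch multiplication.
-/

namespace Vale.Agent.P338.R2.H490

open Vale.Agent.P338.R2.H898
open Vale.Agent.P338.R2.H806.Fp
open Vale.Agent.P338.R2.H784.Bp
open H525 (zeros slotAt)
open H525.Fp (Dim)
open H207.Fp (pos1_lt pos2_lt)
open XP
open H806.LP (seg seg_one seg_add seg_eq)
open Function (update)

/-- The lengths of the rulers. -/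
def mD (D : Dim) : PR → ℕ
  | .K => D.K
  | .X => D.X
  | .Y => D.X
  | .C => 2 * D.X
  | .G => D.G
  | .E => D.E
  | .L => D.L
  | .W => D.W
  | .Q => D.Q

theorem rul_eq {m : PR → ℕ} {D : Dim} (h : Rul m D) : m = mD D := by
  funext r
  cases r
  · exact h.mK
  · exact h.mX
  · exact h.mY
  · exact h.mC
  · exact h.mG
  · exact h.mE
  · exact h.mL
  · exact h.mW
  · exact h.mQ

theorem rul_mD (D : Dim) : Rul (mD D) D := ⟨rfl, rfl, rfl, rfl, rfl, rfl, rfl, rfl, rfl⟩

theorem pos_mD {D : Dim} (hD : Pos D) (r : PR) : 0 < mD D r := by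
  have h1 := hD.hK
  have h2 := hD.hX
  have h3 := hD.hG
  have h4 := hD.hE
  have h5 := hD.hL
  have h6 := hD.hLW
  have h7 := hD.hQ
  cases r <;> simp only [mD] <;> omega

variable {D : Dim} {w : List Bool} {v : PR → ℕ} {p : ℕ}

/-- skip `E` slots -/
def skE : CP PR := loop .E (loop .W skip)
/-- skip `R E` slots -/
def skR : CP PR := loop .G (loop .C skE)
/-- copy `E` slots -/
def cpE : CP PR := loop .E (loop .W copy)
/-- copy `R E` slots -/
def cpR : CP PR := loop .G (loop .C cpE)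
/-- `E` zero slots -/
def zeE : CP PR := loop .E (loop .W (emit false))
/-- `R E` zero slots -/
def zeR : CP PR := loop .G (loop .C zeE)

theorem sk_skE (hE : v .E = 0) (hW : v .W = 0) : Sk (mD D) w skE v (D.E * D.W) :=
  sk_loop hE (fun i => sk_loop1 (by simp [hW]))

theorem sk_skR (hG : v .G = 0) (hC : v .C = 0) (hE : v .E = 0) (hW : v .W = 0) :
    Sk (mD D) w skR v (D.R * D.E * D.W) := by
  refine (sk_loop (n := 2 * D.X * (D.E * D.W)) hG (fun i => sk_loop (n := D.E * D.W)
    (by simp [hC]) (fun j => sk_skE (by simp [hE]) (by simp [hW])))).to ?_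
  simp only [mD]
  unfold Dim.R
  ring

theorem co_cpE (hE : v .E = 0) (hW : v .W = 0) : Co (mD D) w cpE v (D.E * D.W) :=
  co_loop hE (fun i => co_loop1 (by simp [hW]))

theorem co_cpR (hG : v .G = 0) (hC : v .C = 0) (hE : v .E = 0) (hW : v .W = 0) :
    Co (mD D) w cpR v (D.R * D.E * D.W) := by
  refine (co_loop (n := 2 * D.X * (D.E * D.W)) hG (fun i => co_loop (n := D.E * D.W)
    (by simp [hC]) (fun j => co_cpE (by simp [hE]) (by simp [hW])))).to ?_
  simp only [mD]
  unfold Dim.R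
  ring

theorem ze_zeE (hE : v .E = 0) (hW : v .W = 0) : Ze (mD D) w zeE v (D.E * D.W) :=
  ze_loop hE (fun i => ze_loop1 (by simp [hW]))

theorem ze_zeR (hG : v .G = 0) (hC : v .C = 0) (hE : v .E = 0) (hW : v .W = 0) :
    Ze (mD D) w zeR v (D.R * D.E * D.W) := by
  refine (ze_loop (n := 2 * D.X * (D.E * D.W)) hG (fun i => ze_loop (n := D.E * D.W)
    (by simp [hC]) (fun j => ze_zeE (by simp [hE]) (by simp [hW])))).to ?_
  simp only [mD]
  unfold Dim.R
  ring

/-! The slots used by the middle pass. -/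

/-- The program of `exM`. -/
def exMX : CP PR :=
  seq (loop .W skip) (loop .K (seq (loop .X skR) (seq (loop .Q cpR) (loop .X (seq skR skE)))))

theorem ct_exMX (hw : (1 + D.K * D.S1 * D.E) * D.W ≤ w.length) :
    CT (mD D) w exMX (fun _ => 0) 0 ((1 + D.K * D.S1 * D.E) * D.W) (exM D w) := by
  unfold exM
  refine (XT.seq (sk_loop1 (by rfl) _) (ct_loop (n := D.S1 * D.E * D.W)
    (fun k => (List.range D.Q).flatMap fun q => (List.range D.G).flatMap fun g =>
      (List.range (2 * D.X)).flatMap fun c => (List.range D.E).flatMap fun e =>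
        slotAt D.W w (1 + D.pos1 k (D.X + q) g c e)) (by rfl) (fun k hk => ?_))).to ?_
        (List.nil_append _)
  · refine (XT.seq (sk_loop (n := D.R * D.E * D.W) (by simp) (fun i => sk_skR (by simp) (by simp)
      (by simp) (by simp)) _) (XT.seq (ct_loop (n := D.G * (2 * D.X * (D.E * D.W)))
      (fun q => (List.range D.G).flatMap fun g =>
      (List.range (2 * D.X)).flatMap fun c => (List.range D.E).flatMap fun e =>
        slotAt D.W w (1 + D.pos1 k (D.X + q) g c e)) (by simp) (fun q hq => ?_))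
      (sk_loop (n := D.R * D.E * D.W + D.E * D.W) (by simp)
        (fun i => (sk_skR (by simp) (by simp) (by simp) (by simp)).seq
          (sk_skE (by simp) (by simp))) _))).to ?_ ?_
    · refine ct_loop (n := 2 * D.X * (D.E * D.W)) (fun g =>
        (List.range (2 * D.X)).flatMap fun c => (List.range D.E).flatMap fun e =>
          slotAt D.W w (1 + D.pos1 k (D.X + q) g c e)) (by simp) (fun g hg => ?_)
      refine ct_loop (n := D.E * D.W) (fun c => (List.range D.E).flatMap fun e =>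
          slotAt D.W w (1 + D.pos1 k (D.X + q) g c e)) (by simp) (fun c hc => ?_)
      refine ct_loop (n := D.W) (fun e => slotAt D.W w (1 + D.pos1 k (D.X + q) g c e))
        (by simp) (fun e he => ?_)
      refine (co_loop1 (by simp) _).to rfl (seg_slot ?_ ?_)
      · simp only [mD]
        unfold Dim.pos1
        unfold Dim.R
        ring
      · refine le_trans (Nat.mul_le_mul_right _ ?_) hw
        have := pos1_lt (D := D) hk hq hg hc he
        omega
    · simp only [mD]
      unfold Dim.S1 Dim.R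
      ring
    · simp only [List.nil_append, List.append_nil]
      rfl
  · simp only [mD]
    ring

theorem bd_skE (hD : Pos D) : bd (mD D) c0 skE ≤ 9 * (D.E * D.W) := by
  have hW : 1 ≤ D.W := by have := hD.hLW; omega
  refine bd_loop_le (c := 5) hW hD.hE ?_
  simp only [bd, mD]
  omega

theorem bd_cpE (hD : Pos D) : bd (mD D) c0 cpE ≤ 11 * (D.E * D.W) := by
  have hW : 1 ≤ D.W := by have := hD.hLW; omega
  refine bd_loop_le (c := 7) hW hD.hE ?_
  simp only [bd, mD]
  omega

theorem bd_zeE (hD : Pos D) : bd (mD D) c0 zeE ≤ 10 * (D.E * D.W) := by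
  have hW : 1 ≤ D.W := by have := hD.hLW; omega
  refine bd_loop_le (c := 6) hW hD.hE ?_
  simp only [bd, mD]
  omega

theorem pos_EW (hD : Pos D) : 1 ≤ D.E * D.W :=
  Nat.mul_pos hD.hE (by have := hD.hLW; omega)

theorem pos_C (hD : Pos D) : 1 ≤ 2 * D.X := by
  have := hD.hX
  omega

theorem bd_rowR (hD : Pos D) {a : CP PR} {c : ℕ} (h : bd (mD D) c0 a ≤ c * (D.E * D.W)) :
    bd (mD D) c0 (loop .G (loop .C a)) ≤ (c + 8) * (D.R * (D.E * D.W)) := by
  have h2 := bd_loop_le (m := mD D) (cj := c0) (r := PR.C) (pos_EW hD) (pos_C hD) h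
  have h3 := bd_loop_le (m := mD D) (cj := c0) (r := PR.G)
    (Nat.mul_pos (pos_C hD) (pos_EW hD)) hD.hG h2
  refine h3.trans (le_of_eq ?_)
  simp only [mD]
  unfold Dim.R
  ring

theorem pos_REW (hD : Pos D) : 1 ≤ D.R * (D.E * D.W) := Nat.mul_pos hD.hR (pos_EW hD)

theorem le_REW (hD : Pos D) : D.E * D.W ≤ D.R * (D.E * D.W) := Nat.le_mul_of_pos_left _ hD.hR

theorem bd_exMX (hD : Pos D) :
    bd (mD D) c0 exMX ≤ 64 * (D.K * ((D.X + D.Q) * (D.R * (D.E * D.W)))) := by
  have hW : 1 ≤ D.W := by have := hD.hLW; omega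
  have h1 := bd_rowR hD (bd_skE hD)
  have h2 := bd_rowR hD (bd_cpE hD)
  have h3 := bd_loop_le (m := mD D) (cj := c0) (r := PR.X) (pos_REW hD) hD.hX h1
  have h4 := bd_loop_le (m := mD D) (cj := c0) (r := PR.Q) (pos_REW hD) hD.hQ h2
  have h5 : bd (mD D) c0 (seq skR skE) ≤ 26 * (D.R * (D.E * D.W)) := by
    have := bd_skE hD
    have := le_REW hD
    rw [bd]
    unfold skR
    omega
  have h6 := bd_loop_le (m := mD D) (cj := c0) (r := PR.X) (pos_REW hD) hD.hX h5
  simp only [mD] at h3 h4 h6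
  have h7 : (D.X + D.Q) * (D.R * (D.E * D.W)) =
      D.X * (D.R * (D.E * D.W)) + D.Q * (D.R * (D.E * D.W)) := by ring
  have h8 := bd_loop_le (m := mD D) (cj := c0) (r := PR.K) (c := 55)
    (t := (D.X + D.Q) * (D.R * (D.E * D.W)))
    (a := seq (loop .X skR) (seq (loop .Q cpR) (loop .X (seq skR skE))))
    (Nat.mul_pos (by have := hD.hX; omega) (pos_REW hD)) hD.hK (by
      rw [bd, bd, h7]
      unfold cpR
      unfold skR at h6 ⊢
      omega)
  simp only [mD] at h8
  have h9 : D.W ≤ D.K * ((D.X + D.Q) * (D.R * (D.E * D.W))) :=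
    (Nat.le_mul_of_pos_left _ hD.hE).trans ((le_REW hD).trans
      ((Nat.le_mul_of_pos_left _ (by have := hD.hX; omega)).trans
        (Nat.le_mul_of_pos_left _ hD.hK)))
  unfold exMX
  rw [bd]
  have h10 : bd (mD D) c0 (loop .W skip : CP PR) ≤ 5 * D.W := by
    simp only [bd, mD]
    omega
  omega

/-- The `Run` statement of `exM`. -/
theorem run_exM {M F α : Type} [DecidableEq F] [DecidableEq α] {d : α} (D : Dim) (hD : Pos D)
    (I O : F) (hIO : O ≠ I) (ρ : PR → F) (hρ : Function.Injective ρ) (hρI : ∀ r, ρ r ≠ I)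
    (hρO : ∀ r, ρ r ≠ O) (bit : Bool → α) (one mk : α) (hmk : one ≠ mk) (mem : M)
    (z : F → Zip α) (w : List Bool) (m : PR → ℕ) (hm : Rul m D) (hzI : z I = ⟨[], w.map bit⟩)
    (hzO : z O = ⟨[], []⟩) (hz : ∀ r, ∃ c, z (ρ r) = ⟨[], c⟩ ∧ c.length = m r)
    (hw : (1 + D.K * D.S1 * D.E) * D.W ≤ w.length) :
    Prog.Run d (cpass I O ρ bit one mk exMX) ⟨mem, z⟩
      (64 * (D.K * ((D.X + D.Q) * (D.R * (D.E * D.W)))) + 2)
      ⟨mem, update z O ⟨[], (exM D w).map bit⟩⟩ := by
  obtain rfl := rul_eq hm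
  exact run_cpass I O hIO ρ hρ hρI hρO bit one mk hmk _ (by
    simp [exMX, skR, skE, cpR, cpE, WF, writes]) (by
    simp [exMX, skR, skE, cpR, cpE, marks]) mem z w _ hzI hzO hz (pos_mD hD) (ct_exMX hw)
    (bd_exMX hD)

/-! The slots used by the final pass. -/

/-- The program of `exP`. -/
def exPX : CP PR :=
  seq (loop .W skip) (loop .K (seq (loop .Q skR) (seq
    (loop .Y (loop .G (seq (forReg .Y skE) (seq (loop .X cpE) (forCo .Y skE)))))
    (loop .Q skR))))

theorem ct_exPX (hw : (1 + D.K * D.S2 * D.E) * D.W ≤ w.length) :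
    CT (mD D) w exPX (fun _ => 0) 0 ((1 + D.K * D.S2 * D.E) * D.W) (exP D w) := by
  unfold exP
  refine (XT.seq (sk_loop1 (by rfl) _) (ct_loop (n := D.S2 * D.E * D.W)
    (fun k => (List.range D.X).flatMap fun y => (List.range D.G).flatMap fun g =>
      (List.range D.X).flatMap fun x => (List.range D.E).flatMap fun e =>
        slotAt D.W w (1 + D.pos2 k (D.Q + y) g (y + x) e)) (by rfl) (fun k hk => ?_))).to ?_
        (List.nil_append _)
  · refine (XT.seq (sk_loop (n := D.R * D.E * D.W) (by simp) (fun i => sk_skR (by simp) (by simp)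
      (by simp) (by simp)) _) (XT.seq (ct_loop (n := D.G * (2 * D.X * (D.E * D.W)))
      (fun y => (List.range D.G).flatMap fun g => (List.range D.X).flatMap fun x =>
        (List.range D.E).flatMap fun e =>
        slotAt D.W w (1 + D.pos2 k (D.Q + y) g (y + x) e)) (by simp) (fun y hy => ?_))
      (sk_loop (n := D.R * D.E * D.W) (by simp)
        (fun i => sk_skR (by simp) (by simp) (by simp) (by simp)) _))).to ?_ ?_
    · refine ct_loop (n := 2 * D.X * (D.E * D.W)) (fun g =>
        (List.range D.X).flatMap fun x => (List.range D.E).flatMap fun e =>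
          slotAt D.W w (1 + D.pos2 k (D.Q + y) g (y + x) e)) (by simp) (fun g hg => ?_)
      refine (XT.seq (sk_forReg (sk_skE (by simp) (by simp)) _) (XT.seq
        (ct_loop (n := D.E * D.W) (fun x => (List.range D.E).flatMap fun e =>
          slotAt D.W w (1 + D.pos2 k (D.Q + y) g (y + x) e)) (by simp) (fun x hx => ?_))
        (sk_forCo (sk_skE (by simp) (by simp)) _))).to ?_ ?_
      · refine ct_loop (n := D.W) (fun e => slotAt D.W w (1 + D.pos2 k (D.Q + y) g (y + x) e))
          (by simp) (fun e he => ?_)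
        refine (co_loop1 (by simp) _).to rfl (seg_slot ?_ ?_)
        · simp only [mD, ne_eq, reduceCtorEq, not_false_eq_true, Function.update_of_ne,
            Function.update_self]
          unfold Dim.pos2
          unfold Dim.R
          ring
        · refine le_trans (Nat.mul_le_mul_right _ ?_) hw
          have := pos2_lt (D := D) hk hy hg hx he
          omega
      · simp only [mD, ne_eq, reduceCtorEq, not_false_eq_true, Function.update_of_ne,
            Function.update_self]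
        simp only [mD] at hy
        have e1 : y + (D.X + (D.X - y)) = 2 * D.X := by omega
        rw [← e1]
        ring
      · simp [mD]
    · simp only [mD]
      unfold Dim.S2 Dim.R
      ring
    · simp only [List.nil_append, List.append_nil]
      rfl
  · simp only [mD]
    ring

theorem bd_forReg_le {F : Type} {m : F → ℕ} {cj : Empty → ℕ} {r : F} {a : CP F} {c t : ℕ}
    (ht : 1 ≤ t) (hr : 1 ≤ m r) (h : bd m cj a ≤ c * t) :
    bd m cj (forReg r a) ≤ (c + 6) * (m r * t) := by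
  rw [bd]
  have h1 : m r * (bd m cj a + 2) ≤ m r * ((c + 2) * t) :=
    Nat.mul_le_mul_left _ (by nlinarith)
  have h2 : 1 ≤ m r * t := Nat.mul_pos hr ht
  calc m r * (bd m cj a + 2) + 4 ≤ m r * ((c + 2) * t) + 4 * (m r * t) := by omega
    _ = (c + 6) * (m r * t) := by ring

theorem bd_forCo_le {F : Type} {m : F → ℕ} {cj : Empty → ℕ} {r : F} {a : CP F} {c t : ℕ}
    (ht : 1 ≤ t) (hr : 1 ≤ m r) (h : bd m cj a ≤ c * t) :
    bd m cj (forCo r a) ≤ (c + 9) * (m r * t) := by
  rw [bd]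
  have h1 : m r * (bd m cj a + 4) ≤ m r * ((c + 4) * t) :=
    Nat.mul_le_mul_left _ (by nlinarith)
  have h2 : 1 ≤ m r * t := Nat.mul_pos hr ht
  calc m r * (bd m cj a + 4) + 5 ≤ m r * ((c + 4) * t) + 5 * (m r * t) := by omega
    _ = (c + 9) * (m r * t) := by ring

theorem bd_exPX (hD : Pos D) :
    bd (mD D) c0 exPX ≤ 60 * (D.K * ((D.X + D.Q) * (D.R * (D.E * D.W)))) := by
  have hW : 1 ≤ D.W := by have := hD.hLW; omega
  have h1 := bd_rowR hD (bd_skE hD)
  have h3 := bd_loop_le (m := mD D) (cj := c0) (r := PR.Q) (pos_REW hD) hD.hQ h1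
  have g1 := bd_forReg_le (m := mD D) (cj := c0) (r := PR.Y) (pos_EW hD) hD.hX (bd_skE hD)
  have g2 := bd_forCo_le (m := mD D) (cj := c0) (r := PR.Y) (pos_EW hD) hD.hX (bd_skE hD)
  have g3 := bd_loop_le (m := mD D) (cj := c0) (r := PR.X) (pos_EW hD) hD.hX (bd_cpE hD)
  simp only [mD] at h3 g1 g2 g3
  have g4 := bd_loop_le (m := mD D) (cj := c0) (r := PR.G) (c := 48) (t := D.X * (D.E * D.W))
    (a := seq (forReg .Y skE) (seq (loop .X cpE) (forCo .Y skE)))
    (Nat.mul_pos hD.hX (pos_EW hD)) hD.hG (by rw [bd, bd]; omega)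
  simp only [mD] at g4
  have e1 : 2 * (D.G * (D.X * (D.E * D.W))) = D.R * (D.E * D.W) := by
    unfold Dim.R
    ring
  have g5 := bd_loop_le (m := mD D) (cj := c0) (r := PR.Y) (c := 26)
    (t := D.R * (D.E * D.W))
    (a := loop .G (seq (forReg .Y skE) (seq (loop .X cpE) (forCo .Y skE))))
    (pos_REW hD) hD.hX (by omega)
  simp only [mD] at g5
  have h7 : (D.X + D.Q) * (D.R * (D.E * D.W)) =
      D.X * (D.R * (D.E * D.W)) + D.Q * (D.R * (D.E * D.W)) := by ring
  have h8 := bd_loop_le (m := mD D) (cj := c0) (r := PR.K) (c := 46)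
    (t := (D.X + D.Q) * (D.R * (D.E * D.W)))
    (a := seq (loop .Q skR) (seq
    (loop .Y (loop .G (seq (forReg .Y skE) (seq (loop .X cpE) (forCo .Y skE)))))
    (loop .Q skR)))
    (Nat.mul_pos (by have := hD.hX; omega) (pos_REW hD)) hD.hK (by
      rw [bd, bd, h7]
      unfold skR
      omega)
  simp only [mD] at h8
  have h9 : D.W ≤ D.K * ((D.X + D.Q) * (D.R * (D.E * D.W))) :=
    (Nat.le_mul_of_pos_left _ hD.hE).trans ((le_REW hD).trans
      ((Nat.le_mul_of_pos_left _ (by have := hD.hX; omega)).trans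
        (Nat.le_mul_of_pos_left _ hD.hK)))
  unfold exPX
  rw [bd]
  have h10 : bd (mD D) c0 (loop .W skip : CP PR) ≤ 5 * D.W := by
    simp only [bd, mD]
    omega
  omega

/-- The `Run` statement of `exP`. -/
theorem run_exP {M F α : Type} [DecidableEq F] [DecidableEq α] {d : α} (D : Dim) (hD : Pos D)
    (I O : F) (hIO : O ≠ I) (ρ : PR → F) (hρ : Function.Injective ρ) (hρI : ∀ r, ρ r ≠ I)
    (hρO : ∀ r, ρ r ≠ O) (bit : Bool → α) (one mk : α) (hmk : one ≠ mk) (mem : M)
    (z : F → Zip α) (w : List Bool) (m : PR → ℕ) (hm : Rul m D) (hzI : z I = ⟨[], w.map bit⟩)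
    (hzO : z O = ⟨[], []⟩) (hz : ∀ r, z (ρ r) = ⟨[], List.replicate (m r) one⟩)
    (hw : (1 + D.K * D.S2 * D.E) * D.W ≤ w.length) :
    Prog.Run d (cpass I O ρ bit one mk exPX) ⟨mem, z⟩
      (60 * (D.K * ((D.X + D.Q) * (D.R * (D.E * D.W)))) + 2)
      ⟨mem, update z O ⟨[], (exP D w).map bit⟩⟩ := by
  obtain rfl := rul_eq hm
  refine (run_cpassM I O hIO ρ hρ hρI hρO bit one mk hmk exPX (by
    simp [exPX, skR, skE, cpE, WF, writes, uses]) mem z w _ hzI hzO (fun r _ => ⟨_, hz r, by simp,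
      fun _ => rfl⟩) (fun r _ => pos_mD hD r) (ct_exPX hw)).mono ?_
  exact Nat.add_le_add_right (bd_exPX hD) 2

/-! The format of the input of the second product. -/

/-- The program of `fmtM`. -/
def fmtMX : CP PR :=
  loop .K (seq (loop .Q cpR) (seq (loop .X zeR) (loop .Q zeR)))

theorem ct_fmtMX (hw : D.K * (D.Q * D.R * D.E * D.W) ≤ w.length) :
    CT (mD D) w fmtMX (fun _ => 0) 0 (D.K * (D.Q * D.R * D.E * D.W)) (fmtM D w) := by
  unfold fmtM
  refine ct_loop (n := D.Q * D.R * D.E * D.W) _ (by rfl) (fun k hk => ?_)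
  refine (XT.seq (co_loop (n := D.R * D.E * D.W) (by simp) (fun i => co_cpR (by simp) (by simp)
    (by simp) (by simp)) _) (XT.seq (ze_loop (n := D.R * D.E * D.W) (by simp)
    (fun i => ze_zeR (by simp) (by simp) (by simp) (by simp)) _)
    (ze_loop (n := D.R * D.E * D.W) (by simp)
    (fun i => ze_zeR (by simp) (by simp) (by simp) (by simp)) _))).to ?_ ?_
  · simp only [mD]
    ring
  · simp only [mD] at hk ⊢
    have e1 : D.Q * (D.R * D.E * D.W) = D.Q * D.R * D.E * D.W := by ring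
    have e2 : (D.X + D.Q) * D.R * D.E * D.W =
        D.X * (D.R * D.E * D.W) + D.Q * (D.R * D.E * D.W) := by ring
    have e3 : k * (D.Q * D.R * D.E * D.W) + D.Q * D.R * D.E * D.W ≤
        D.K * (D.Q * D.R * D.E * D.W) := by
      have := Nat.mul_le_mul_right (D.Q * D.R * D.E * D.W) (Nat.succ_le_of_lt hk)
      rwa [Nat.succ_mul] at this
    rw [e2, zeros_add, e1, seg_eq false (by omega)]
    congr 3
    rw [Nat.zero_add]

theorem bd_fmtMX (hD : Pos D) :
    bd (mD D) c0 fmtMX ≤ 60 * (D.K * ((D.X + D.Q) * (D.R * (D.E * D.W)))) := by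
  have h1 := bd_rowR hD (bd_zeE hD)
  have h2 := bd_rowR hD (bd_cpE hD)
  have h3 := bd_loop_le (m := mD D) (cj := c0) (r := PR.X) (pos_REW hD) hD.hX h1
  have h5 := bd_loop_le (m := mD D) (cj := c0) (r := PR.Q) (pos_REW hD) hD.hQ h1
  have h4 := bd_loop_le (m := mD D) (cj := c0) (r := PR.Q) (pos_REW hD) hD.hQ h2
  simp only [mD] at h3 h4 h5
  have h7 : (D.X + D.Q) * (D.R * (D.E * D.W)) =
      D.X * (D.R * (D.E * D.W)) + D.Q * (D.R * (D.E * D.W)) := by ring
  have h8 := bd_loop_le (m := mD D) (cj := c0) (r := PR.K) (c := 56)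
    (t := (D.X + D.Q) * (D.R * (D.E * D.W)))
    (a := seq (loop .Q cpR) (seq (loop .X zeR) (loop .Q zeR)))
    (Nat.mul_pos (by have := hD.hX; omega) (pos_REW hD)) hD.hK (by
      rw [bd, bd, h7]
      unfold cpR zeR
      omega)
  exact h8

/-- The `Run` statement of `fmtM`. -/
theorem run_fmtM {M F α : Type} [DecidableEq F] [DecidableEq α] {d : α} (D : Dim) (hD : Pos D)
    (I O : F) (hIO : O ≠ I) (ρ : PR → F) (hρ : Function.Injective ρ) (hρI : ∀ r, ρ r ≠ I)
    (hρO : ∀ r, ρ r ≠ O) (bit : Bool → α) (one mk : α) (hmk : one ≠ mk) (mem : M)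
    (z : F → Zip α) (w : List Bool) (m : PR → ℕ) (hm : Rul m D) (hzI : z I = ⟨[], w.map bit⟩)
    (hzO : z O = ⟨[], []⟩) (hz : ∀ r, ∃ c, z (ρ r) = ⟨[], c⟩ ∧ c.length = m r)
    (hw : D.K * (D.Q * D.R * D.E * D.W) ≤ w.length) :
    Prog.Run d (cpass I O ρ bit one mk fmtMX) ⟨mem, z⟩
      (60 * (D.K * ((D.X + D.Q) * (D.R * (D.E * D.W)))) + 2)
      ⟨mem, update z O ⟨[], (fmtM D w).map bit⟩⟩ := by
  obtain rfl := rul_eq hm
  exact run_cpass I O hIO ρ hρ hρI hρO bit one mk hmk _ (by
    simp [fmtMX, cpR, cpE, zeR, zeE, WF, writes]) (by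
    simp [fmtMX, cpR, cpE, zeR, zeE, marks]) mem z w _ hzI hzO hz (pos_mD hD) (ct_fmtMX hw)
    (bd_fmtMX hD)

/-! The format of the output. -/

/-- skip `W - L` bits -/
def skWL : CP PR := seq (loop .L (inc .W)) (loop .W skip)

theorem sk_skWL (hLW : D.L < D.W) (hL : v .L = 0) (hW : v .W = 0) :
    Sk (mD D) w skWL v (D.W - D.L) := by
  intro p o x hx
  refine ⟨x, hx, ?_⟩
  have k1 : ∀ i ≤ (mD D) .L, (fun s => (XP.eval (mD D) w false (S0 Bool) (inc .W) s).set .L
      ((XP.eval (mD D) w false (S0 Bool) (inc .W) s).v .L + 1))^[i]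
        (⟨v, p, o, x⟩ : XS PR Bool Unit) = ⟨update (update v .W i) .L i, p, o, x⟩ := by
    intro i
    induction i with
    | zero =>
      intro _
      simp only [Function.iterate_zero, id_eq]
      rw [update_zero hW, update_zero hL]
    | succ i ih =>
      intro hi
      rw [Function.iterate_succ_apply', ih (by omega)]
      have h1 : (i + 1) % (mD D) .W = i + 1 := Nat.mod_eq_of_lt (by
        simp only [mD] at hi ⊢
        omega)
      simp only [XP.eval, XS.set, XS.mk.injEq, and_true]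
      funext r
      cases r <;> simp [Function.update, h1]
  have e1 : XP.eval (mD D) w false (S0 Bool) (loop .L (inc .W)) (⟨v, p, o, x⟩ : XS PR Bool Unit) =
      ⟨update v .W D.L, p, o, x⟩ := by
    rw [XP.eval]
    simp only [hL, Nat.sub_zero]
    rw [k1 _ le_rfl]
    simp only [mD, XS.set, XS.mk.injEq, and_true]
    funext r
    cases r <;> simp [Function.update, hL]
  have k2 : ∀ j, (fun s => (XP.eval (mD D) w false (S0 Bool) skip s).set .W
      ((XP.eval (mD D) w false (S0 Bool) skip s).v .W + 1))^[j]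
        (⟨update v .W D.L, p, o, x⟩ : XS PR Bool Unit) =
      ⟨update v .W (D.L + j), p + j, o, x⟩ := by
    intro j
    induction j with
    | zero => simp
    | succ j ih =>
      rw [Function.iterate_succ_apply', ih]
      simp only [XP.eval, XS.set, XS.mk.injEq, and_true]
      refine ⟨?_, by ring⟩
      rw [Function.update_idem, Function.update_self]
      rfl
  have e2 : XP.eval (mD D) w false (S0 Bool) (loop .W skip)
      (⟨update v .W D.L, p, o, x⟩ : XS PR Bool Unit) = ⟨v, p + (D.W - D.L), o, x⟩ := by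
    rw [XP.eval]
    simp only [Function.update_self]
    rw [k2]
    simp only [mD, XS.set, Function.update_idem, XS.mk.injEq, and_true]
    exact update_zero hW
  rw [skWL, XP.eval, e1, e2, List.append_nil]

theorem slot_end {w : List Bool} {b c k p t : ℕ} (hck : c + k = b) (hp : p = t * b + c)
    (hl : (t + 1) * b ≤ w.length) : seg w false p k = (slotAt b w t).drop c := by
  rw [slot_part hck.le hp hl]
  apply List.take_of_length_le
  rw [List.length_drop]
  unfold slotAt
  rw [List.length_take]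
  omega

/-- The program of `fmtP`. -/
def fmtPX : CP PR :=
  loop .K (loop .X (loop .G (loop .Y (loop .E (seq skWL (loop .L copy))))))

theorem ct_fmtPX (hLW : D.L < D.W) (hw : D.K * (D.X * (D.G * (D.X * (D.E * D.W)))) ≤ w.length) :
    CT (mD D) w fmtPX (fun _ => 0) 0 (D.K * (D.X * (D.G * (D.X * (D.E * D.W))))) (fmtP D w) := by
  unfold fmtP
  rw [H525.flatMap_range_mul]
  refine ct_loop (n := D.X * (D.G * (D.X * (D.E * D.W)))) _ (by rfl) (fun k hk => ?_)
  rw [H525.flatMap_range_mul]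
  refine ct_loop (n := D.G * (D.X * (D.E * D.W))) _ (by simp) (fun x hx => ?_)
  rw [H525.flatMap_range_mul]
  refine ct_loop (n := D.X * (D.E * D.W)) _ (by simp) (fun g hg => ?_)
  rw [H525.flatMap_range_mul]
  refine ct_loop (n := D.E * D.W) _ (by simp) (fun y hy => ?_)
  refine ct_loop (n := D.W) _ (by simp) (fun e he => ?_)
  refine (XT.seq (sk_skWL hLW (by simp) (by simp) _) (co_loop1 (by simp) _)).to ?_ ?_
  · simp only [mD]
    omega
  · rw [List.nil_append]
    simp only [mD] at hk hx hg hy he ⊢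
    have h1 := idx_lt hk (idx_lt hx (idx_lt hg (idx_lt hy he)))
    refine slot_end (b := D.W) (t := k * (D.X * (D.G * (D.X * D.E))) +
      (x * (D.G * (D.X * D.E)) + (g * (D.X * D.E) + (y * D.E + e)))) (by omega) (by ring) ?_
    refine le_trans (Nat.mul_le_mul_right _ (Nat.succ_le_of_lt h1)) (le_trans (le_of_eq ?_) hw)
    ring

theorem bd_fmtPX (hD : Pos D) :
    bd (mD D) c0 fmtPX ≤ 50 * (D.K * (D.X * (D.G * (D.X * (D.E * D.W))))) := by
  have hW : 1 ≤ D.W := by have := hD.hLW; omega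
  have h1 : bd (mD D) c0 (seq skWL (loop .L copy)) ≤ 30 * D.W := by
    simp only [skWL, bd, mD]
    have := hD.hLW
    omega
  exact bd_loop_le (m := mD D) (Nat.mul_pos hD.hX (Nat.mul_pos hD.hG (Nat.mul_pos hD.hX
    (pos_EW hD)))) hD.hK (bd_loop_le (m := mD D) (Nat.mul_pos hD.hG (Nat.mul_pos hD.hX
    (pos_EW hD))) hD.hX (bd_loop_le (m := mD D) (Nat.mul_pos hD.hX (pos_EW hD)) hD.hG
      (bd_loop_le (m := mD D) (pos_EW hD) hD.hX (bd_loop_le (m := mD D) hW hD.hE h1))))

/-- The `Run` statement of `fmtP`. -/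
theorem run_fmtP {M F α : Type} [DecidableEq F] [DecidableEq α] {d : α} (D : Dim) (hD : Pos D)
    (I O : F) (hIO : O ≠ I) (ρ : PR → F) (hρ : Function.Injective ρ) (hρI : ∀ r, ρ r ≠ I)
    (hρO : ∀ r, ρ r ≠ O) (bit : Bool → α) (one mk : α) (hmk : one ≠ mk) (mem : M)
    (z : F → Zip α) (w : List Bool) (m : PR → ℕ) (hm : Rul m D) (hzI : z I = ⟨[], w.map bit⟩)
    (hzO : z O = ⟨[], []⟩) (hz : ∀ r, ∃ c, z (ρ r) = ⟨[], c⟩ ∧ c.length = m r)
    (hw : D.K * (D.X * (D.G * (D.X * (D.E * D.W)))) ≤ w.length) :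
    Prog.Run d (cpass I O ρ bit one mk fmtPX) ⟨mem, z⟩
      (50 * (D.K * (D.X * (D.G * (D.X * (D.E * D.W))))) + 2)
      ⟨mem, update z O ⟨[], (fmtP D w).map bit⟩⟩ := by
  obtain rfl := rul_eq hm
  exact run_cpass I O hIO ρ hρ hρI hρO bit one mk hmk _ (by
    simp [fmtPX, skWL, WF, writes]) (by
    simp [fmtPX, skWL, marks]) mem z w _ hzI hzO hz (pos_mD hD) (ct_fmtPX hD.hLW hw)
    (bd_fmtPX hD)

end Vale.Agent.P338.R2.H490
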