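import Vale.Agent.P338.R2.H806.Fp.PackP

/-!
P338, stage 3: loop programs on bits without external instructions.
-/

namespace Vale.Agent.P338.R2.H490

open Vale.Agent.P338.R2.H898
open Vale.Agent.P338.R2.H806.Fp
open H525 (zeros slotAt)
open XP
open H806.LP (seg seg_one seg_add seg_eq flatMap_seg_range' flatMap_replicate_range)
open Function (update)

/-- Loop programs on bits. -/
abbrev CP (R : Type) := XP R Bool Empty

/-- No external instructions. -/
def S0 (α : Type) : XSem α Empty Unit := ⟨fun j => j.elim, fun j => j.elim, fun j => j.elim⟩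

section rules

variable {R : Type} [DecidableEq R] {m : R → ℕ} {w : List Bool} {a b : CP R} {v : R → ℕ}
  {p n n' c : ℕ} {out out' : List Bool}

/-- `a` does not change the registers `v`, moves the input position from `p` to `p + n` and
appends `out` to the output. -/
abbrev CT (m : R → ℕ) (w : List Bool) (a : CP R) (v : R → ℕ) (p n : ℕ) (out : List Bool) : Prop :=
  XT m w false (S0 Bool) a v p n out (fun _ => True) (fun _ => True)

/-- `a` copies `n` bits. -/
def Co (m : R → ℕ) (w : List Bool) (a : CP R) (v : R → ℕ) (n : ℕ) : Prop :=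
  ∀ p, CT m w a v p n (seg w false p n)

/-- `a` skips `n` bits. -/
def Sk (m : R → ℕ) (w : List Bool) (a : CP R) (v : R → ℕ) (n : ℕ) : Prop :=
  ∀ p, CT m w a v p n []

/-- `a` writes `n` zeros. -/
def Ze (m : R → ℕ) (w : List Bool) (a : CP R) (v : R → ℕ) (n : ℕ) : Prop :=
  ∀ p, CT m w a v p 0 (zeros n)

theorem ct_nop : CT m w (nop : CP R) v p 0 [] := by
  intro o x hx
  exact ⟨x, hx, by simp [XP.eval]⟩

theorem ct_loop {r : R} (out : ℕ → List Bool) (hv : v r = 0)
    (h : ∀ i < m r, CT m w a (update v r i) (p + i * n) n (out i)) :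
    CT m w (loop r a) v p (m r * n) ((List.range (m r)).flatMap out) :=
  xt_loop (fun _ _ => True) out hv h

theorem Co.to (h : Co m w a v n) (e : n = n') : Co m w a v n' := e ▸ h
theorem Sk.to (h : Sk m w a v n) (e : n = n') : Sk m w a v n' := e ▸ h
theorem Ze.to (h : Ze m w a v n) (e : n = n') : Ze m w a v n' := e ▸ h

theorem co_copy : Co m w (copy : CP R) v 1 := fun _ => xt_copy

theorem sk_skip : Sk m w (skip : CP R) v 1 := fun _ => xt_skip

theorem ze_emit : Ze m w (emit false : CP R) v 1 := fun _ => xt_emit false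

theorem Co.seq (h : Co m w a v n) (h' : Co m w b v n') : Co m w (seq a b) v (n + n') := by
  intro p
  refine (XT.seq (h p) (h' (p + n))).to rfl ?_
  rw [seg_add]

theorem Sk.seq (h : Sk m w a v n) (h' : Sk m w b v n') : Sk m w (seq a b) v (n + n') :=
  fun p => XT.seq (h p) (h' (p + n))

theorem zeros_add (a b : ℕ) : zeros (a + b) = zeros a ++ zeros b := by
  unfold zeros
  exact (List.replicate_append_replicate ..).symm

theorem Ze.seq (h : Ze m w a v n) (h' : Ze m w b v n') : Ze m w (seq a b) v (n + n') := by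
  intro p
  refine (XT.seq (h p) (h' (p + 0))).to rfl ?_
  rw [zeros_add]

theorem co_loop {r : R} (hv : v r = 0) (h : ∀ i, Co m w a (update v r i) n) :
    Co m w (loop r a) v (m r * n) := by
  intro p
  refine (ct_loop (fun i => seg w false (p + i * n) n) hv (fun i _ => h i _)).to rfl ?_
  have h2 := flatMap_seg_range' w false p 0 (m r) n
  simp only [Nat.sub_zero] at h2
  rw [List.range_eq_range', h2]

theorem sk_loop {r : R} (hv : v r = 0) (h : ∀ i, Sk m w a (update v r i) n) :
    Sk m w (loop r a) v (m r * n) := by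
  intro p
  refine (ct_loop (fun _ => []) hv (fun i _ => h i _)).to rfl ?_
  simp

theorem ze_loop {r : R} (hv : v r = 0) (h : ∀ i, Ze m w a (update v r i) n) :
    Ze m w (loop r a) v (m r * n) := by
  intro p
  refine (ct_loop (n := 0) (fun _ => zeros n) hv (fun i _ => h i _)).to (Nat.mul_zero _) ?_
  exact flatMap_replicate_range n false _

theorem co_loop1 {r : R} (hv : v r = 0) : Co m w (loop r copy) v (m r) :=
  (co_loop hv (fun _ => co_copy)).to (Nat.mul_one _)

theorem sk_loop1 {r : R} (hv : v r = 0) : Sk m w (loop r skip) v (m r) :=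
  (sk_loop hv (fun _ => sk_skip)).to (Nat.mul_one _)

theorem ze_loop1 {r : R} (hv : v r = 0) : Ze m w (loop r (emit false)) v (m r) :=
  (ze_loop hv (fun _ => ze_emit)).to (Nat.mul_one _)

/-- `k` times. -/
def rep : ℕ → CP R → CP R
  | 0, _ => nop
  | k + 1, a => seq a (rep k a)

theorem sk_rep (h : Sk m w a v n) (k : ℕ) : Sk m w (rep k a) v (k * n) := by
  induction k with
  | zero =>
    intro p
    rw [Nat.zero_mul]
    exact ct_nop
  | succ k ih => exact (h.seq ih).to (by ring)

theorem ze_rep (h : Ze m w a v n) (k : ℕ) : Ze m w (rep k a) v (k * n) := by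
  induction k with
  | zero =>
    intro p
    rw [Nat.zero_mul]
    exact ct_nop
  | succ k ih => exact (h.seq ih).to (by ring)

theorem sk_forReg {r : R} (h : Sk m w a v n) : Sk m w (forReg r a) v (v r * n) := by
  intro p o x hx
  refine ⟨x, hx, ?_⟩
  have key : ∀ i, (XP.eval m w false (S0 Bool) a)^[i] (⟨v, p, o, x⟩ : XS R Bool Unit) =
      ⟨v, p + i * n, o, x⟩ := by
    intro i
    induction i with
    | zero => simp
    | succ i ih =>
      rw [Function.iterate_succ_apply', ih]
      obtain ⟨x', -, e⟩ := h (p + i * n) o x hx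
      rw [e, List.append_nil, Nat.succ_mul, Nat.add_assoc]
  rw [XP.eval, key, List.append_nil]

theorem sk_forCo {r : R} (h : Sk m w a v n) : Sk m w (forCo r a) v ((m r - v r) * n) := by
  intro p o x hx
  refine ⟨x, hx, ?_⟩
  have key : ∀ i, (XP.eval m w false (S0 Bool) a)^[i] (⟨v, p, o, x⟩ : XS R Bool Unit) =
      ⟨v, p + i * n, o, x⟩ := by
    intro i
    induction i with
    | zero => simp
    | succ i ih =>
      rw [Function.iterate_succ_apply', ih]
      obtain ⟨x', -, e⟩ := h (p + i * n) o x hx
      rw [e, List.append_nil, Nat.succ_mul, Nat.add_assoc]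
  rw [XP.eval, key, List.append_nil]

omit [DecidableEq R] in
theorem uses_rep [DecidableEq R] (k : ℕ) (a : CP R) :
    (rep k a).uses = if k = 0 then ∅ else a.uses := by
  induction k with
  | zero => rfl
  | succ k ih =>
    rw [rep, uses, ih]
    by_cases h : k = 0
    · simp [h]
    · simp [h]

theorem writes_rep (k : ℕ) (a : CP R) :
    (rep k a).writes = if k = 0 then ∅ else a.writes := by
  induction k with
  | zero => rfl
  | succ k ih =>
    rw [rep, writes, ih]
    by_cases h : k = 0
    · simp [h]
    · simp [h]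

theorem marks_rep (k : ℕ) (a : CP R) :
    (rep k a).marks = if k = 0 then ∅ else a.marks := by
  induction k with
  | zero => rfl
  | succ k ih =>
    rw [rep, marks, ih]
    by_cases h : k = 0
    · simp [h]
    · simp [h]

theorem wf_rep (k : ℕ) (a : CP R) : (rep k a).WF ↔ (k = 0 ∨ a.WF) := by
  induction k with
  | zero => simp [rep, WF]
  | succ k ih =>
    rw [rep, WF, ih]
    by_cases h : k = 0
    · simp [h]
    · simp [h]

omit [DecidableEq R] in
theorem bd_rep {cj : Empty → ℕ} (k : ℕ) (a : CP R) :
    bd m cj (rep k a) = k * bd m cj a + 1 := by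
  induction k with
  | zero => simp [rep, bd]
  | succ k ih =>
    rw [rep, bd, ih]
    ring

end rules

/-! The pass. -/

section run

variable {R : Type} [DecidableEq R]

theorem eval_sym0 {α : Type} (bit : Bool → α) (m : R → ℕ) (w : List Bool)
    (e : Bool) (a : CP R) (s : XS R Bool Unit) :
    eval m (w.map bit) (bit e) (S0 α) (a.sym bit) (s.sym bit) =
      (eval m w e (S0 Bool) a s).sym bit := by
  have hget : ∀ i, (w.map bit).getD i (bit e) = bit (w.getD i e) := by
    intro i
    simp only [List.getD_eq_getElem?_getD, List.getElem?_map]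
    cases w[i]? <;> rfl
  induction a generalizing s with
  | nop => rfl
  | emit b =>
    simp [sym, eval, XS.sym]
  | copy =>
    simp only [sym, eval, XS.sym, XS.mk.injEq, true_and, and_true]
    rw [hget]
    simp
  | skip => rfl
  | inc r => rfl
  | seq a b iha ihb =>
    simp only [sym, eval]
    rw [iha, ihb]
  | loop r a ih =>
    have h1 : ∀ n (s : XS R Bool Unit), (fun s => (eval m (w.map bit) (bit e) (S0 α)
        (a.sym bit) s).set r ((eval m (w.map bit) (bit e) (S0 α)
        (a.sym bit) s).v r + 1))^[n] (s.sym bit) =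
        ((fun s => (eval m w e (S0 Bool) a s).set r
          ((eval m w e (S0 Bool) a s).v r + 1))^[n] s).sym bit := by
      intro n
      induction n with
      | zero => intro s; rfl
      | succ n ihn =>
        intro s
        rw [Function.iterate_succ_apply, Function.iterate_succ_apply, ih, XS.sym_set]
        exact ihn _
    simp only [sym, eval]
    exact congrArg (fun s => XS.set s r 0) (h1 _ s)
  | forReg r a ih =>
    have h1 : ∀ n (s : XS R Bool Unit), (eval m (w.map bit) (bit e) (S0 α)
        (a.sym bit))^[n] (s.sym bit) = ((eval m w e (S0 Bool) a)^[n] s).sym bit := by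
      intro n
      induction n with
      | zero => intro s; rfl
      | succ n ihn =>
        intro s
        rw [Function.iterate_succ_apply, Function.iterate_succ_apply, ih, ihn]
    simp only [sym, eval]
    exact h1 _ s
  | forCo r a ih =>
    have h1 : ∀ n (s : XS R Bool Unit), (eval m (w.map bit) (bit e) (S0 α)
        (a.sym bit))^[n] (s.sym bit) = ((eval m w e (S0 Bool) a)^[n] s).sym bit := by
      intro n
      induction n with
      | zero => intro s; rfl
      | succ n ihn =>
        intro s
        rw [Function.iterate_succ_apply, Function.iterate_succ_apply, ih, ihn]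
    simp only [sym, eval]
    exact h1 _ s
  | ext j => exact j.elim

/-- Cost of the external instructions. -/
def c0 : Empty → ℕ := fun j => j.elim

/-- The program of a pass: from the file `I` to the (empty) file `O`; both are rewound. -/
def cpass {M F α : Type} [DecidableEq F] [DecidableEq α] (I O : F) (ρ : R → F)
    (bit : Bool → α) (one mk : α) (a : CP R) : Prog M F α :=
  passX (J := Empty) I O one mk (bit false) (fun j => j.elim) (XP.map ρ (a.sym bit))

/-- The `Run` statement of a pass, with registers. -/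
theorem run_cpassM {M F α : Type} [DecidableEq F] [DecidableEq α] {d : α} (I O : F) (hIO : O ≠ I)
    (ρ : R → F) (hρ : Function.Injective ρ) (hρI : ∀ r, ρ r ≠ I) (hρO : ∀ r, ρ r ≠ O)
    (bit : Bool → α) (one mk : α) (hmk : one ≠ mk) (a : CP R) (hwf : a.WF) (mem : M)
    (z : F → Zip α) (w : List Bool) (m : R → ℕ) (hzI : z I = ⟨[], w.map bit⟩)
    (hzO : z O = ⟨[], []⟩)
    (hz : ∀ r ∈ a.uses, ∃ c, z (ρ r) = ⟨[], c⟩ ∧ c.length = m r ∧
      (r ∈ a.marks → c = List.replicate (m r) one))
    (hm : ∀ r ∈ a.uses, 0 < m r) {n : ℕ} {out : List Bool}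
    (h : CT m w a (fun _ => 0) 0 n out) :
    Prog.Run d (cpass I O ρ bit one mk a) ⟨mem, z⟩ (bd m c0 a + 2)
      ⟨mem, update z O ⟨[], out.map bit⟩⟩ := by
  obtain ⟨x', _, hx'⟩ := h [] () trivial
  have hev : eval m (w.map bit) (bit false) (S0 α) (a.sym bit) ⟨fun _ => 0, 0, [], ()⟩ =
      ⟨fun _ => 0, n, out.map bit, ()⟩ := by
    have h1 := eval_sym0 bit m w false a ⟨fun _ => 0, 0, [], ()⟩
    rw [hx'] at h1
    simpa [XS.sym] using h1
  have hrun := XP.run_passX (d := d) (M := M) (σ := Unit) ρ hρ (a.sym bit)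
    (XP.wf_sym bit a hwf) I O hIO ∅ (by simp) (by simp) hρI hρO (by simp) one mk (bit false) hmk
    mem (fun _ _ => ⟨[], []⟩) (S0 α) (fun j => j.elim) c0 (w.map bit) (fun j => j.elim) z m hzI
    hzO (by rwa [XP.uses_sym, XP.marks_sym]) (by rwa [XP.uses_sym]) (by simp) hev
  rw [XP.bd_sym] at hrun
  have hfin : (fun f => if f = O then (⟨[], out.map bit⟩ : Zip α) else
      if f ∈ (∅ : Finset F) then ⟨[], []⟩ else z f) = update z O ⟨[], out.map bit⟩ := by
    funext f
    by_cases hf : f = O
    · subst hf
      rw [Function.update_self, if_pos rfl]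
    · rw [Function.update_of_ne hf, if_neg hf]
      simp
  rw [hfin] at hrun
  exact hrun

/-- The `Run` statement of a pass, without `forReg` and `forCo`. -/
theorem run_cpass {M F α : Type} [DecidableEq F] [DecidableEq α] {d : α} (I O : F) (hIO : O ≠ I)
    (ρ : R → F) (hρ : Function.Injective ρ) (hρI : ∀ r, ρ r ≠ I) (hρO : ∀ r, ρ r ≠ O)
    (bit : Bool → α) (one mk : α) (hmk : one ≠ mk) (a : CP R) (hwf : a.WF) (hma : a.marks = ∅)
    (mem : M) (z : F → Zip α) (w : List Bool) (m : R → ℕ) (hzI : z I = ⟨[], w.map bit⟩)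
    (hzO : z O = ⟨[], []⟩) (hz : ∀ r, ∃ c, z (ρ r) = ⟨[], c⟩ ∧ c.length = m r)
    (hm : ∀ r, 0 < m r) {n : ℕ} {out : List Bool}
    (h : CT m w a (fun _ => 0) 0 n out) {t : ℕ} (ht : bd m c0 a ≤ t) :
    Prog.Run d (cpass I O ρ bit one mk a) ⟨mem, z⟩ (t + 2)
      ⟨mem, update z O ⟨[], out.map bit⟩⟩ := by
  refine (run_cpassM I O hIO ρ hρ hρI hρO bit one mk hmk a hwf mem z w m hzI hzO (fun r _ => ?_)
    (fun r _ => hm r) h).mono (Nat.add_le_add_right ht 2)
  obtain ⟨c, h1, h2⟩ := hz r
  refine ⟨c, h1, h2, fun h3 => ?_⟩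
  rw [hma] at h3
  simp at h3

end run

end Vale.Agent.P338.R2.H490
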