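import Vale.Agent.P338.R2.H490.CT
import Vale.Agent.P338.R2.H784.Bp.Spec

/-!
P338, stage 3: the copy passes of the batch multiplication.
-/

namespace Vale.Agent.P338.R2.H490

open Vale.Agent.P338.R2.H898
open Vale.Agent.P338.R2.H806.Fp
open Vale.Agent.P338.R2.H784.Bp
open H525 (zeros slotAt)
open XP
open H806.LP (seg seg_one seg_add seg_eq)
open Function (update)

theorem seg_slot {w : List Bool} {p t W : ℕ} (h : p = t * W) (hl : (t + 1) * W ≤ w.length) :
    seg w false p W = slotAt W w t := by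
  subst h
  rw [seg_eq false (by rw [← Nat.succ_mul]; exact hl)]
  rfl

theorem idx_lt {N D i j : ℕ} (hi : i < N) (hj : j < D) : i * D + j < N * D := by
  calc i * D + j < i * D + D := by omega
    _ = (i + 1) * D := by ring
    _ ≤ N * D := Nat.mul_le_mul_right _ hi

theorem idx_le {N D b t : ℕ} (h : t < N * D) : (t + 1) * b ≤ N * (D * b) := by
  calc (t + 1) * b ≤ N * D * b := Nat.mul_le_mul_right _ h
    _ = N * (D * b) := by ring

/-! Extending digits. -/

/-- The rulers. -/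
inductive SR
  | N | D | g
  deriving DecidableEq

/-- The program of `spreadB`. -/
def spreadX : CP SR := loop .N (loop .D (seq (rep 19 (loop .g (emit false))) (loop .g copy)))

theorem ct_spreadX {m : SR → ℕ} {w : List Bool} (hw : m .N * (m .D * m .g) ≤ w.length) :
    CT m w spreadX (fun _ => 0) 0 (m .N * (m .D * m .g))
      (spreadB (m .g) (20 * m .g) (m .N * m .D) w) := by
  unfold spreadB
  rw [H525.flatMap_range_mul]
  refine ct_loop (n := m .D * m .g) _ rfl (fun i hi => ?_)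
  refine ct_loop (n := m .g) _ (by simp) (fun j hj => ?_)
  refine (XT.seq (ze_rep (ze_loop1 (by simp)) 19 _) (co_loop1 (by simp) _)).to
    (Nat.zero_add _) ?_
  rw [seg_slot (t := i * m .D + j) (by ring) ((idx_le (idx_lt hi hj)).trans hw)]
  congr 2
  omega

theorem bd_spreadX {m : SR → ℕ} (hN : 1 ≤ m .N) (hD : 1 ≤ m .D) (hg : 1 ≤ m .g) :
    bd m c0 spreadX ≤ 130 * (m .N * (m .D * m .g)) := by
  have h1 : bd m c0 (seq (rep 19 (loop .g (emit false))) (loop .g copy) : CP SR) ≤ 122 * m .g := by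
    simp only [bd, bd_rep]
    omega
  exact bd_loop_le (Nat.mul_pos hD hg) hN (bd_loop_le hg hD h1)

/-- The `Run` statement of `spreadB`. -/
theorem run_spread {M F α : Type} [DecidableEq F] [DecidableEq α] {d : α} (I O : F) (hIO : O ≠ I)
    (ρ : SR → F) (hρ : Function.Injective ρ) (hρI : ∀ r, ρ r ≠ I) (hρO : ∀ r, ρ r ≠ O)
    (bit : Bool → α) (one mk : α) (hmk : one ≠ mk) (mem : M)
    (z : F → Zip α) (w : List Bool) (m : SR → ℕ) (hzI : z I = ⟨[], w.map bit⟩)
    (hzO : z O = ⟨[], []⟩) (hz : ∀ r, ∃ c, z (ρ r) = ⟨[], c⟩ ∧ c.length = m r)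
    (hm : ∀ r, 0 < m r) (hw : m .N * (m .D * m .g) ≤ w.length) :
    Prog.Run d (cpass I O ρ bit one mk spreadX) ⟨mem, z⟩ (130 * (m .N * (m .D * m .g)) + 2)
      ⟨mem, update z O ⟨[], (spreadB (m .g) (20 * m .g) (m .N * m .D) w).map bit⟩⟩ :=
  run_cpass I O hIO ρ hρ hρI hρO bit one mk hmk _ (by
    simp [spreadX, WF, writes, wf_rep, writes_rep]) (by
    simp [spreadX, marks, marks_rep]) mem z w m hzI hzO hz hm (ct_spreadX hw)
    (bd_spreadX (hm _) (hm _) (hm _))

/-! The digits of the coefficients. -/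

/-- The rulers. -/
inductive AR
  | N | J | g
  deriving DecidableEq

/-- The program of `carB` (`v ≤ 2`). -/
def carX (v : ℕ) : CP AR :=
  loop .N (seq (rep (2 - v) (loop .g (emit false)))
    (seq (loop .J (seq (rep (19 - v) (loop .g skip)) (seq (loop .g copy) (rep v (loop .g skip)))))
      (rep v (loop .g (emit false)))))

theorem slot_part {w : List Bool} {b c k p t : ℕ} (hck : c + k ≤ b) (hp : p = t * b + c)
    (hl : (t + 1) * b ≤ w.length) : seg w false p k = ((slotAt b w t).drop c).take k := by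
  subst hp
  have h1 : (t + 1) * b = t * b + b := by ring
  rw [seg_eq false (by omega)]
  unfold slotAt
  rw [List.drop_take, List.take_take, List.drop_drop, min_eq_left (by omega)]

theorem ct_carX {m : AR → ℕ} {w : List Bool} {v : ℕ} (hv : v ≤ 2)
    (hw : m .N * (m .J * (20 * m .g)) ≤ w.length) :
    CT m w (carX v) (fun _ => 0) 0 (m .N * (m .J * (20 * m .g)))
      (carB (m .g) (20 * m .g) v (m .J) (m .N) w) := by
  unfold carB
  refine ct_loop (n := m .J * (20 * m .g)) _ rfl (fun i hi => ?_)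
  refine (XT.seq (ze_rep (ze_loop1 (by simp)) (2 - v) _) (XT.seq
    (ct_loop (n := 20 * m .g) (fun j => ((slotAt (20 * m .g) w (i * m .J + j)).drop
      (20 * m .g - m .g * (v + 1))).take (m .g)) (by simp) (fun j hj => ?_))
    (ze_rep (ze_loop1 (by simp)) v _))).to ?_ ?_
  · refine (XT.seq (sk_rep (sk_loop1 (by simp)) (19 - v) _) (XT.seq (co_loop1 (by simp) _)
      (sk_rep (sk_loop1 (by simp)) v _))).to ?_ ?_
    · interval_cases v <;> ring
    · rw [List.nil_append, List.append_nil]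
      refine slot_part (b := 20 * m .g) (t := i * m .J + j) ?_ ?_
        ((idx_le (idx_lt hi hj)).trans hw)
      · interval_cases v <;> omega
      · have e1 : 20 * m .g - m .g * (v + 1) = (19 - v) * m .g := by
          interval_cases v <;> omega
        rw [e1]
        ring
  · rw [Nat.zero_add, Nat.add_zero]
  · rw [Nat.mul_comm (m .g) (2 - v), Nat.mul_comm (m .g) v, List.append_assoc]

theorem bd_carX {m : AR → ℕ} {v : ℕ} (hv : v ≤ 2) (hN : 1 ≤ m .N) (hJ : 1 ≤ m .J)
    (hg : 1 ≤ m .g) : bd m c0 (carX v) ≤ 160 * (m .N * (m .J * m .g)) := by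
  have h0 : bd m c0 (seq (rep (19 - v) (loop .g skip))
      (seq (loop .g copy) (rep v (loop .g skip))) : CP AR) ≤ 114 * m .g := by
    simp only [bd, bd_rep]
    interval_cases v <;> omega
  have h1 := bd_loop_le (m := m) (cj := c0) (r := AR.J) hg hJ h0
  have h2 : m .g ≤ m .J * m .g := Nat.le_mul_of_pos_left _ hJ
  refine bd_loop_le (c := 156) (Nat.mul_pos hJ hg) hN ?_
  rw [bd, bd, bd_rep, bd_rep]
  have h3 : bd m c0 (loop .g (emit false) : CP AR) ≤ 6 * m .g := by
    simp only [bd]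
    omega
  have h4 : v * bd m c0 (loop .g (emit false) : CP AR) ≤ 2 * (6 * m .g) := Nat.mul_le_mul hv h3
  have h5 : (2 - v) * bd m c0 (loop .g (emit false) : CP AR) ≤ 2 * (6 * m .g) :=
    Nat.mul_le_mul (by omega) h3
  omega

/-- The `Run` statement of `carB`. -/
theorem run_car {M F α : Type} [DecidableEq F] [DecidableEq α] {d : α} (I O : F) (hIO : O ≠ I)
    (ρ : AR → F) (hρ : Function.Injective ρ) (hρI : ∀ r, ρ r ≠ I) (hρO : ∀ r, ρ r ≠ O)
    (bit : Bool → α) (one mk : α) (hmk : one ≠ mk) (mem : M)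
    (z : F → Zip α) (w : List Bool) (m : AR → ℕ) (hzI : z I = ⟨[], w.map bit⟩)
    (hzO : z O = ⟨[], []⟩) (hz : ∀ r, ∃ c, z (ρ r) = ⟨[], c⟩ ∧ c.length = m r)
    (hm : ∀ r, 0 < m r) {v : ℕ} (hv : v ≤ 2) (hw : m .N * (m .J * (20 * m .g)) ≤ w.length) :
    Prog.Run d (cpass I O ρ bit one mk (carX v)) ⟨mem, z⟩
      (160 * (m .N * (m .J * m .g)) + 2)
      ⟨mem, update z O ⟨[], (carB (m .g) (20 * m .g) v (m .J) (m .N) w).map bit⟩⟩ :=
  run_cpass I O hIO ρ hρ hρI hρO bit one mk hmk _ (by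
    interval_cases v <;> simp [carX, WF, writes, wf_rep, writes_rep]) (by
    simp [carX, marks, marks_rep]) mem z w m hzI hzO hz hm (ct_carX hv hw)
    (bd_carX hv (hm _) (hm _) (hm _))

/-! The low parts. -/

/-- The rulers (`P` has length `pad`). -/
inductive TR
  | N | W | P | g
  deriving DecidableEq

/-- The program of `trimB`. -/
def trimX : CP TR :=
  loop .N (seq (seq (rep 2 (loop .P skip)) (seq (loop .g skip) (loop .W skip)))
    (seq (loop .W (emit false)) (loop .W copy)))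

theorem ct_trimX {m : TR → ℕ} {w : List Bool}
    (hw : m .N * (2 * m .P + m .g + 2 * m .W) ≤ w.length) :
    CT m w trimX (fun _ => 0) 0 (m .N * (2 * m .P + m .g + 2 * m .W))
      (trimB (2 * m .P + m .g) (m .W) (m .N) w) := by
  unfold trimB
  refine ct_loop (n := 2 * m .P + m .g + 2 * m .W) _ rfl (fun i hi => ?_)
  refine (XT.seq (((sk_rep (sk_loop1 (by simp)) 2).seq ((sk_loop1 (by simp)).seq
    (sk_loop1 (by simp)))) _) (XT.seq (ze_loop1 (by simp) _) (co_loop1 (by simp) _))).to ?_ ?_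
  · ring
  · rw [List.nil_append]
    congr 1
    have h1 : (i + 1) * (2 * m .P + m .g + 2 * m .W) ≤ w.length :=
      (Nat.mul_le_mul_right _ hi).trans hw
    rw [Nat.succ_mul] at h1
    rw [seg_eq false (by omega)]
    congr 2
    ring

theorem bd_trimX {m : TR → ℕ} (hN : 1 ≤ m .N) (hW : 1 ≤ m .W) (hP : 1 ≤ m .P)
    (hg : 1 ≤ m .g) : bd m c0 trimX ≤ 13 * (m .N * (2 * m .P + m .g + 2 * m .W)) := by
  refine bd_loop_le (c := 9) (by omega) hN ?_
  simp only [bd, bd_rep]
  omega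

/-- The `Run` statement of `trimB`. -/
theorem run_trim {M F α : Type} [DecidableEq F] [DecidableEq α] {d : α} (I O : F) (hIO : O ≠ I)
    (ρ : TR → F) (hρ : Function.Injective ρ) (hρI : ∀ r, ρ r ≠ I) (hρO : ∀ r, ρ r ≠ O)
    (bit : Bool → α) (one mk : α) (hmk : one ≠ mk) (mem : M)
    (z : F → Zip α) (w : List Bool) (m : TR → ℕ) (hzI : z I = ⟨[], w.map bit⟩)
    (hzO : z O = ⟨[], []⟩) (hz : ∀ r, ∃ c, z (ρ r) = ⟨[], c⟩ ∧ c.length = m r)
    (hm : ∀ r, 0 < m r) (hw : m .N * (2 * m .P + m .g + 2 * m .W) ≤ w.length) :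
    Prog.Run d (cpass I O ρ bit one mk trimX) ⟨mem, z⟩
      (13 * (m .N * (2 * m .P + m .g + 2 * m .W)) + 2)
      ⟨mem, update z O ⟨[], (trimB (2 * m .P + m .g) (m .W) (m .N) w).map bit⟩⟩ :=
  run_cpass I O hIO ρ hρ hρI hρO bit one mk hmk _ (by
    simp [trimX, WF, writes, wf_rep, writes_rep]) (by
    simp [trimX, marks, marks_rep]) mem z w m hzI hzO hz hm (ct_trimX hw)
    (bd_trimX (hm _) (hm _) (hm _) (hm _))

/-! The low and the high halves. -/

/-- The rulers. -/
inductive HR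
  | N | W
  deriving DecidableEq

/-- The program of `lowB`. -/
def lowX : CP HR :=
  seq (loop .W skip) (loop .N (seq (loop .W skip) (seq (loop .W (emit false)) (loop .W copy))))

/-- The program of `highB`. -/
def highX : CP HR :=
  seq (loop .W skip) (loop .N (seq (loop .W copy) (loop .W skip)))

theorem ct_lowX {m : HR → ℕ} {w : List Bool} (hw : (2 * m .N + 1) * m .W ≤ w.length) :
    CT m w lowX (fun _ => 0) 0 ((2 * m .N + 1) * m .W) (lowB (m .W) (m .N) w) := by
  unfold lowB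
  refine (XT.seq (sk_loop1 (by simp) _) (ct_loop (n := 2 * m .W)
    (fun v => zeros (m .W) ++ slotAt (m .W) w (2 * v + 2)) (by simp) (fun i hi => ?_))).to
    (by ring) (List.nil_append _)
  refine (XT.seq (sk_loop1 (by simp) _) (XT.seq (ze_loop1 (by simp) _)
    (co_loop1 (by simp) _))).to (by ring) ?_
  rw [List.nil_append, seg_slot (t := 2 * i + 2) (by ring)]
  exact (Nat.mul_le_mul_right _ (by omega)).trans hw

theorem ct_highX {m : HR → ℕ} {w : List Bool} (hw : 2 * m .N * m .W ≤ w.length) :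
    CT m w highX (fun _ => 0) 0 ((2 * m .N + 1) * m .W) (highB (m .W) (m .N) w) := by
  unfold highB
  refine (XT.seq (sk_loop1 (by simp) _) (ct_loop (n := 2 * m .W)
    (fun v => slotAt (m .W) w (2 * v + 1)) (by simp) (fun i hi => ?_))).to
    (by ring) (List.nil_append _)
  refine (XT.seq (co_loop1 (by simp) _) (sk_loop1 (by simp) _)).to (by ring) ?_
  rw [List.append_nil, seg_slot (t := 2 * i + 1) (by ring)]
  exact (Nat.mul_le_mul_right _ (by omega)).trans hw

theorem bd_lowX {m : HR → ℕ} (hN : 1 ≤ m .N) (hW : 1 ≤ m .W) :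
    bd m c0 lowX ≤ 27 * (m .N * m .W) := by
  have h1 : bd m c0 (seq (loop .W skip) (seq (loop .W (emit false)) (loop .W copy)) : CP HR) ≤
      18 * m .W := by
    simp only [bd]
    omega
  have h2 := bd_loop_le (m := m) (cj := c0) (r := HR.N) hW hN h1
  have h3 : m .W ≤ m .N * m .W := Nat.le_mul_of_pos_left _ hN
  have h4 : bd m c0 (loop .W skip : CP HR) ≤ 5 * m .W := by
    simp only [bd]
    omega
  unfold lowX
  rw [bd]
  omega

theorem bd_highX {m : HR → ℕ} (hN : 1 ≤ m .N) (hW : 1 ≤ m .W) :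
    bd m c0 highX ≤ 21 * (m .N * m .W) := by
  have h1 : bd m c0 (seq (loop .W copy) (loop .W skip) : CP HR) ≤ 12 * m .W := by
    simp only [bd]
    omega
  have h2 := bd_loop_le (m := m) (cj := c0) (r := HR.N) hW hN h1
  have h3 : m .W ≤ m .N * m .W := Nat.le_mul_of_pos_left _ hN
  have h4 : bd m c0 (loop .W skip : CP HR) ≤ 5 * m .W := by
    simp only [bd]
    omega
  unfold highX
  rw [bd]
  omega

/-- The `Run` statement of `lowB`. -/
theorem run_low {M F α : Type} [DecidableEq F] [DecidableEq α] {d : α} (I O : F) (hIO : O ≠ I)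
    (ρ : HR → F) (hρ : Function.Injective ρ) (hρI : ∀ r, ρ r ≠ I) (hρO : ∀ r, ρ r ≠ O)
    (bit : Bool → α) (one mk : α) (hmk : one ≠ mk) (mem : M)
    (z : F → Zip α) (w : List Bool) (m : HR → ℕ) (hzI : z I = ⟨[], w.map bit⟩)
    (hzO : z O = ⟨[], []⟩) (hz : ∀ r, ∃ c, z (ρ r) = ⟨[], c⟩ ∧ c.length = m r)
    (hm : ∀ r, 0 < m r) (hw : (2 * m .N + 1) * m .W ≤ w.length) :
    Prog.Run d (cpass I O ρ bit one mk lowX) ⟨mem, z⟩ (27 * (m .N * m .W) + 2)
      ⟨mem, update z O ⟨[], (lowB (m .W) (m .N) w).map bit⟩⟩ :=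
  run_cpass I O hIO ρ hρ hρI hρO bit one mk hmk _ (by
    simp [lowX, WF, writes]) (by simp [lowX, marks]) mem z w m hzI hzO hz hm (ct_lowX hw)
    (bd_lowX (hm _) (hm _))

/-- The `Run` statement of `highB`. -/
theorem run_high {M F α : Type} [DecidableEq F] [DecidableEq α] {d : α} (I O : F) (hIO : O ≠ I)
    (ρ : HR → F) (hρ : Function.Injective ρ) (hρI : ∀ r, ρ r ≠ I) (hρO : ∀ r, ρ r ≠ O)
    (bit : Bool → α) (one mk : α) (hmk : one ≠ mk) (mem : M)
    (z : F → Zip α) (w : List Bool) (m : HR → ℕ) (hzI : z I = ⟨[], w.map bit⟩)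
    (hzO : z O = ⟨[], []⟩) (hz : ∀ r, ∃ c, z (ρ r) = ⟨[], c⟩ ∧ c.length = m r)
    (hm : ∀ r, 0 < m r) (hw : 2 * m .N * m .W ≤ w.length) :
    Prog.Run d (cpass I O ρ bit one mk highX) ⟨mem, z⟩ (21 * (m .N * m .W) + 2)
      ⟨mem, update z O ⟨[], (highB (m .W) (m .N) w).map bit⟩⟩ :=
  run_cpass I O hIO ρ hρ hρI hρO bit one mk hmk _ (by
    simp [highX, WF, writes]) (by simp [highX, marks]) mem z w m hzI hzO hz hm (ct_highX hw)
    (bd_highX (hm _) (hm _))

end Vale.Agent.P338.R2.H490
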